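import Vale.Agent.P330.Phys.Rule

/-!
P330: the physical realisation of test and correction of a code.
-/

namespace Vale.Agent.P330.Phys

open Vale.Agent.Lib.PolyTime hiding C P
open Vale.Agent.Lib.Dep
open Finset

section Defs

variable {c k m : ℕ} {P S A G T : Type}

/-- the cells sampled in the row of the symbol `a` -/
def rowc (nb : S × G → Fin m → S × G) (z : Cell P A S G) (a : A) (i : Fin m) : Cell P A S G :=
  (z.1, a, nb z.2.2 i)

/-- the majority over the sample in the row of the cell -/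
noncomputable def majGate (nb : S × G → Fin m → S × G) (t : T) (z : Cell P A S G) :
    Gate (Cell P A S G × T) :=
  Gate.mk' (fun i => (rowc nb z z.2.1 i, t)) fun y => decide (1 / 2 < mean y)

/-- the test is passed by the readings `y` -/
def TPass [Nonempty A] [DecidableEq A] (f : (Fin k → A) → Bool) (e : Fin k → Fin k → Bool) (a : A)
    (y : Bool ⊕ (A × Fin m) ⊕ (Fin k × A) → ℝ) : Prop :=
  |y (.inl false) - bv (decide (1 / 2 < y (.inl true)))| ≤ 1 / 5 ∧
    (∃ a0, |y (.inl false) - bv (decide (a0 = a))| ≤ 1 / 5 ∧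
      ∀ b, |mean (fun i => y (.inr (.inl (b, i)))) - bv (decide (a0 = b))| ≤ 1 / 5) ∧
    rval f e (fun d => y (.inr (.inr d))) = true

variable [En P] [En S] [DecidableEq P] [DecidableEq S]

/-- the nodes read by the test -/
def tsrc (nb : S × G → Fin m → S × G) (ρ : Option (Fin c) → T) (tk : T)
    (r : P → S → Rule c k P A Bool) (z : Cell P A S G) :
    Bool ⊕ (A × Fin m) ⊕ (Fin k × A) → Cell P A S G × T :=
  Sum.elim (fun b => (z, bif b then tk else ρ none))
    (Sum.elim (fun d => (rowc nb z d.1 d.2, ρ none)) (rsrc ρ r z))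

open Classical in
/-- the gate of the test -/
noncomputable def testGate [En A] [Nonempty A] [DecidableEq A] (nb : S × G → Fin m → S × G)
    (ρ : Option (Fin c) → T) (tk : T) (r : P → S → Rule c k P A Bool) (z : Cell P A S G) :
    Gate (Cell P A S G × T) :=
  Gate.mk' (tsrc nb ρ tk r z) fun y =>
    decide (¬ TPass (r z.1 z.2.2.1).fn (pat (r z.1 z.2.2.1)) z.2.1 y)

/-- the module of a code with `t` rounds of correction -/
noncomputable def codeMod [En A] [Nonempty A] [DecidableEq A] (t : ℕ) (nb : S × G → Fin m → S × G)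
    (L : LCode c k P S A) : Mod (Cell P A S G) (Option (Fin (t + 1) × Bool)) (Option (Fin c))
  | z, none => testGate nb Sum.inr (Sum.inl (some (Fin.ofNat (t + 1) t, false))) L.tst z
  | z, some (i, true) => ruleGate (fun _ => Sum.inl (some (i, false))) L.cor z
  | z, some (i, false) => majGate nb
      (if i.val = 0 then Sum.inr none else Sum.inl (some (Fin.ofNat (t + 1) (i.val - 1), true))) z

end Defs

section Sem

variable {c k m : ℕ} {P S A G T : Type} [Fintype P] [Fintype S] [Fintype A] [Fintype G]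
  [Nonempty P] [Nonempty S] [Nonempty A] [Nonempty G] [DecidableEq A] [Nonempty (Fin m)]
  {nb : S × G → Fin m → S × G} {η : ℝ} {x : Cell P A S G × T → ℝ}

/-- the mean of a row -/
noncomputable def rowMean (u : Cell P A S G → ℝ) (p : P) (a : A) : ℝ :=
  mean fun t : S × G => u (p, a, t)

/-- The sample is not representative. -/
def SBad (η : ℝ) (nb : S × G → Fin m → S × G) (u : Cell P A S G → ℝ) (z : Cell P A S G) (a : A) :
    Prop :=
  η < |mean (fun i => u (rowc nb z a i)) - rowMean u z.1 a|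

omit [Nonempty S] [Nonempty G] [DecidableEq A] [Nonempty (Fin m)] in
theorem frac_sbad (hnb : Sampler η nb) {u : Cell P A S G → ℝ} (hu : Unit01 u) (f : A → A) :
    frac (fun z : Cell P A S G => SBad η nb u z (f z.2.1)) ≤ η :=
  frac_prod_le fun p => frac_prod_le fun a => hnb (fun t => u (p, f a, t)) fun _ => hu _

omit [Nonempty S] [Nonempty G] [DecidableEq A] [Nonempty (Fin m)] in
theorem frac_sbad' (hnb : Sampler η nb) {u : Cell P A S G → ℝ} (hu : Unit01 u) :
    frac (fun z : Cell P A S G => ∃ a, SBad η nb u z a) ≤ Fintype.card A * η :=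
  frac_exists_le' fun a => frac_sbad hnb hu fun _ => a

omit [Nonempty P] [Nonempty S] [DecidableEq A] in
theorem frac_ps (q : P × S → Prop) :
    frac (fun z : Cell P A S G => q (z.1, z.2.2.1)) = frac q := by
  rw [frac_prod, frac_prod q]
  refine congrArg mean (funext fun p => ?_)
  exact (frac_snd (X := A) fun t : S × G => q (p, t.1)).trans (frac_fst fun s => q (p, s))

omit [Fintype P] [Fintype A] [Nonempty P] [Nonempty S] [Nonempty A] [Nonempty G] [DecidableEq A] in
theorem read_mean {u : Cell P A S G → ℝ} {z : Cell P A S G} {a : A} (h : ¬ SBad η nb u z a)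
    {y : Fin m → ℝ} (hy : ∀ i, |y i - u (rowc nb z a i)| ≤ η) :
    |mean y - rowMean u z.1 a| ≤ 2 * η := by
  have h1 := abs_mean_sub_le hy
  have h2 := not_lt.1 h
  have h3 := abs_sub_le (mean y) (mean fun i => u (rowc nb z a i)) (rowMean u z.1 a)
  linarith

omit [Nonempty S] [Nonempty G] in
theorem maj_exact (hnb : Sampler η nb) (hη : η ≤ 1 / 100) (hx : Unit01 x) {t : T}
    {o : Cell P A S G → ℝ} (ho : frac (fun z => ¬ (majGate nb t z).Sat η x (o z)) ≤ η) {W : P → A}
    {Bd : P → Prop} (h : ∀ p, ¬ Bd p → ∀ a,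
      |rowMean (fun z => x (z, t)) p a - bv (decide (W p = a))| ≤ 23 / 50) :
    frac (fun z => ¬ Bd z.1 ∧ o z ≠ bv (encb S G W z)) ≤ 2 * η := by
  refine le_trans (frac_mono fun z hz => ?_) ((frac_or_le' ho
    (frac_sbad hnb (u := fun z => x (z, t)) (fun _ => hx _) id)).trans (by linarith))
  by_contra hno
  rw [not_or, not_not] at hno
  refine hz.2 (sat_mk' hno.1 fun y hy => round_eq ?_)
  have h1 := read_mean hno.2 hy
  have h2 := h z.1 hz.1 z.2.1
  have h3 := abs_sub_le (mean y) (rowMean (fun z => x (z, t)) z.1 z.2.1) (bv (encb S G W z))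
  exact lt_of_le_of_lt h3 (lt_of_le_of_lt (add_le_add h1 h2) (by linarith))

omit [Nonempty P] in
theorem rows_start {u : Cell P A S G → ℝ} (hu : Unit01 u) (W0 W : P → A) :
    ∃ Bd : P → Prop, frac Bd ≤ frac (fun p => W0 p ≠ W p) +
      20 * Fintype.card A * tvd u (encb S G W0) ∧
      ∀ p, ¬ Bd p → ∀ a, |rowMean u p a - bv (decide (W p = a))| ≤ 23 / 50 := by
  refine ⟨fun p => W0 p ≠ W p ∨ ∃ a, 1 / 20 ≤ frac fun t : S × G =>
    2 / 5 < |u (p, a, t) - bv (encb S G W0 (p, a, t))|, frac_or_le' le_rfl ?_, fun p hp a => ?_⟩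
  · refine (frac_rows (fun z => 2 / 5 < |u z - bv (encb S G W0 z)|) (by norm_num)).trans
      (le_of_eq ?_)
    unfold tvd
    ring
  · rw [not_or, not_not, not_exists] at hp
    have h1 := abs_mean_sub_bv_le (u := fun t : S × G => u (p, a, t)) (fun _ => hu _)
      (decide (W0 p = a)) (β := 2 / 5) (by norm_num) (fun t ht => not_lt.1 ht)
    rw [← hp.1]
    exact h1.trans (le_trans (add_le_add_right (not_le.1 (hp.2 a)).le _) (by norm_num))

variable [En P] [En S] [En A] [DecidableEq P] [DecidableEq S] {K Δ θ h : ℝ}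
  {L : LCode c k P S A} {inp : Fin c → P → A}

omit [Nonempty P] in
theorem rows_step (hb : L.Bal K) (hg : L.Good inp Δ θ h) (hη : η ≤ 1 / 100) (hx : Unit01 x)
    {W : P → A} (hW : L.Valid inp W) {Bd : P → Prop} (hB : frac Bd ≤ h) {tk tr : T}
    (hk : frac (fun z => ¬ Bd z.1 ∧ x (z, tk) ≠ bv (encb S G W z)) ≤ 2 * η)
    (hr : frac (fun z => ¬ (ruleGate (fun _ => tk) L.cor z).Sat η x (x (z, tr))) ≤ η) :
    ∃ Bd' : P → Prop, frac Bd' ≤ frac Bd / 2 + 8 * Fintype.card A * (η + cM A k K * (2 * η)) ∧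
      ∀ p, ¬ Bd' p → ∀ a,
        |rowMean (fun z => x (z, tr)) p a - bv (decide (W p = a))| ≤ 23 / 50 := by
  set Ns : Cell P A S G → Prop := fun z => (L.cor z.1 z.2.2.1).Safe W Bd (W z.1) ∧
    x (z, tr) ≠ bv (encb S G W z) with hNs
  have h1 : frac Ns ≤ η + cM A k K * (2 * η) := by
    refine le_trans (frac_mono fun z hz => ?_) (frac_or_le' hr ((frac_rdc hb.cor _).trans
      (mul_le_mul_of_nonneg_left hk (cM_nonneg A k K))))
    by_contra hno
    rw [not_or, not_not] at hno
    refine hz.2 (sat_mk' hno.1 fun y hy => ?_)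
    rw [rval_safe (by linarith) hy hz.1 hno.2]
    rfl
  refine ⟨fun p => (1 / 4 ≤ frac fun s => ¬ (L.cor p s).Safe W Bd (W p)) ∨
    ∃ a, 1 / 8 ≤ frac fun t : S × G => Ns (p, a, t), frac_or_le' (hg.cor W hW Bd hB) ?_,
    fun p hp a => ?_⟩
  · refine (frac_rows Ns (by norm_num)).trans ?_
    rw [show (Fintype.card A : ℝ) / (1 / 8) = 8 * Fintype.card A by ring]
    exact mul_le_mul_of_nonneg_left h1 (by positivity)
  · rw [not_or, not_exists] at hp
    have h2 := abs_mean_sub_bv_le (u := fun t : S × G => x ((p, a, t), tr)) (fun _ => hx _)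
      (decide (W p = a)) le_rfl
      (p := fun t => ¬ (L.cor p t.1).Safe W Bd (W p) ∨ Ns (p, a, t)) fun t ht => by
        rw [not_or, not_not] at ht
        have h3 : x ((p, a, t), tr) = bv (decide (W p = a)) := not_not.1 fun h3 => ht.2 ⟨ht.1, h3⟩
        rw [h3, sub_self, abs_zero]
    have h3 := frac_or_le' (frac_fst (Y := G) fun s => ¬ (L.cor p s).Safe W Bd (W p)).le
      (not_le.1 (hp.2 a)).le
    exact h2.trans (by linarith [not_le.1 hp.1])

/-- Iterated correction. -/
theorem correct (hnb : Sampler η nb) (hb : L.Bal K) (hg : L.Good inp Δ θ h) (hη : η ≤ 1 / 100)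
    (hx : Unit01 x) {tw : T} {tk tr : ℕ → T} {t : ℕ}
    (h0 : frac (fun z => ¬ (majGate nb tw z).Sat η x (x (z, tk 0))) ≤ η)
    (hk : ∀ i < t, frac (fun z => ¬ (majGate nb (tr i) z).Sat η x (x (z, tk (i + 1)))) ≤ η)
    (hr : ∀ i < t, frac (fun z => ¬ (ruleGate (fun _ => tk i) L.cor z).Sat η x (x (z, tr i))) ≤ η)
    (hν : 16 * Fintype.card A * (η + cM A k K * (2 * η)) ≤ h) {W0 W : P → A} (hW : L.Valid inp W)
    (hB : frac (fun p => W0 p ≠ W p) +
      20 * Fintype.card A * tvd (fun z => x (z, tw)) (encb S G W0) ≤ h) :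
    pd (fun z => x (z, tk t)) (encb S G W) ≤
      h / 2 ^ t + 16 * Fintype.card A * (η + cM A k K * (2 * η)) + 2 * η := by
  have hη0 : 0 ≤ η := (frac_nonneg _).trans h0
  have hν0 : 0 ≤ 16 * Fintype.card A * (η + cM A k K * (2 * η)) := by
    have := cM_nonneg A k K
    positivity
  have key : ∀ i ≤ t, ∃ Bd : P → Prop, frac Bd ≤ h ∧
      frac Bd ≤ h / 2 ^ i + 16 * Fintype.card A * (η + cM A k K * (2 * η)) ∧
      frac (fun z => ¬ Bd z.1 ∧ x (z, tk i) ≠ bv (encb S G W z)) ≤ 2 * η := by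
    intro i
    induction i with
    | zero =>
      intro _
      obtain ⟨Bd, h1, h2⟩ := rows_start (u := fun z => x (z, tw)) (fun _ => hx _) W0 W
      exact ⟨Bd, h1.trans hB, by rw [pow_zero, div_one]; linarith, maj_exact hnb hη hx h0 h2⟩
    | succ i ih =>
      intro hi
      obtain ⟨Bd, h1, h2, h3⟩ := ih (by omega)
      obtain ⟨Bd', h4, h5⟩ := rows_step hb hg hη hx hW h1 h3 (hr i hi)
      refine ⟨Bd', by linarith, ?_, maj_exact hnb hη hx (hk i hi) h5⟩
      rw [pow_succ, ← div_div]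
      linarith
  obtain ⟨Bd, -, h2, h3⟩ := key t le_rfl
  refine le_trans (frac_mono fun z hz => ?_)
    (frac_or_le' ((frac_fst (Y := A × S × G) Bd).le.trans h2) h3)
  by_cases h4 : Bd z.1
  exacts [Or.inl h4, Or.inr ⟨h4, hz⟩]

variable {ρ : Option (Fin c) → T} {tk : T} {r : P → S → Rule c k P A Bool} {o : Cell P A S G → ℝ}

/-- The test at the cell is passed by some admissible readings. -/
def Passed (nb : S × G → Fin m → S × G) (ρ : Option (Fin c) → T) (tk : T)
    (r : P → S → Rule c k P A Bool) (η : ℝ) (x : Cell P A S G × T → ℝ) (z : Cell P A S G) : Prop :=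
  ∃ y, (∀ d, |y d - x (tsrc nb ρ tk r z d)| ≤ η) ∧
    TPass (r z.1 z.2.2.1).fn (pat (r z.1 z.2.2.1)) z.2.1 y

omit [Nonempty P] [Nonempty S] [Nonempty G] [Nonempty (Fin m)] in
theorem frac_not_passed (ho : Unit01 o)
    (hs : frac (fun z => ¬ (testGate nb ρ tk r z).Sat η x (o z)) ≤ η) :
    frac (fun z => ¬ Passed nb ρ tk r η x z) ≤ η + mean o := by
  refine le_trans (frac_mono fun z hz => ?_) (frac_or_le' hs
    (frac_le_mean (p := fun z => o z = 1) (fun z => (ho z).1) fun z hz => hz.ge))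
  by_cases h1 : (testGate nb ρ tk r z).Sat η x (o z)
  · exact Or.inr (sat_mk' h1 (b := true) fun y hy => by
      classical
      exact decide_eq_true fun h2 => hz ⟨y, hy, h2⟩)
  · exact Or.inl h1

omit [Nonempty S] [Nonempty G] in
theorem test_word (hnb : Sampler η nb) (hη : η ≤ 1 / 100) (hx : Unit01 x) (ho : Unit01 o)
    (hs : frac (fun z => ¬ (testGate nb ρ tk r z).Sat η x (o z)) ≤ η) :
    tvd (fun z => x (z, ρ none)) (encb S G fun p => dec (rowMean (fun z => x (z, ρ none)) p)) ≤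
      η + mean o + Fintype.card A * η := by
  refine le_trans (frac_mono fun z hz => ?_) (frac_or_le' (frac_not_passed ho hs)
    (frac_sbad' hnb (u := fun z => x (z, ρ none)) fun _ => hx _))
  by_contra hno
  rw [not_or, not_not, not_exists] at hno
  obtain ⟨⟨y, hy, -, ⟨a0, h1, h2⟩, -⟩, h3⟩ := hno
  have h4 : dec (rowMean (fun z => x (z, ρ none)) z.1) = a0 := dec_eq fun b => by
    have h5 := read_mean (h3 b) fun i => hy (.inr (.inl (b, i)))
    have h6 := abs_sub_le (rowMean (fun z => x (z, ρ none)) z.1 b)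
      (mean fun i => y (.inr (.inl (b, i)))) (bv (decide (a0 = b)))
    rw [abs_sub_comm] at h5
    linarith [h2 b]
  have h5 : |y (.inl false) - x (z, ρ none)| ≤ η := hy (.inl false)
  have h6 := abs_sub_le (x (z, ρ none)) (y (.inl false)) (bv (decide (a0 = z.2.1)))
  rw [abs_sub_comm] at h5
  simp only [encb, h4] at hz
  linarith

omit [Nonempty P] [Nonempty (Fin m)] in
theorem test_tst (hr : RuleBal K r) (hη : η ≤ 1 / 100) (ho : Unit01 o)
    (hs : frac (fun z => ¬ (testGate nb ρ tk r z).Sat η x (o z)) ≤ η) {W : P → A} {ε : ℝ}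
    (hb : frac (BadW ρ x inp W) ≤ ε) :
    frac (fun q : P × S => (r q.1 q.2).eval inp W = false) ≤ η + mean o + cM A k K * ε := by
  rw [← frac_ps (A := A) (G := G)]
  refine le_trans (frac_mono fun z hz => ?_) (frac_or_le' (frac_not_passed ho hs)
    ((frac_rdc hr _).trans (mul_le_mul_of_nonneg_left hb (cM_nonneg A k K))))
  by_contra hno
  rw [not_or, not_not] at hno
  obtain ⟨⟨y, hy, -, -, h1⟩, h2⟩ := hno
  rw [rval_eq (by linarith) (fun d => hy (.inr (.inr d))) h2, hz] at h1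
  exact Bool.noConfusion h1

omit [Nonempty P] [Nonempty S] [Nonempty G] [Nonempty (Fin m)] in
theorem test_close (hη : η ≤ 1 / 100) (ho : Unit01 o)
    (hs : frac (fun z => ¬ (testGate nb ρ tk r z).Sat η x (o z)) ≤ η) (u : Cell P A S G → Bool) :
    tvd (fun z => x (z, ρ none)) u ≤ η + mean o + pd (fun z => x (z, tk)) u := by
  refine le_trans (frac_mono fun z hz => ?_) (frac_or_le' (frac_not_passed ho hs) le_rfl)
  by_contra hno
  rw [not_or, not_not, not_not] at hno
  obtain ⟨⟨y, hy, h1, -, -⟩, h2⟩ := hno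
  have h3 : |y (.inl false) - x (z, ρ none)| ≤ η := hy (.inl false)
  have h4 : |y (.inl true) - x (z, tk)| ≤ η := hy (.inl true)
  rw [show x (z, tk) = bv (u z) from h2] at h4
  rw [round_eq (lt_of_le_of_lt h4 (by linarith))] at h1
  have h6 := abs_sub_le (x (z, ρ none)) (y (.inl false)) (bv (u z))
  rw [abs_sub_comm] at h3
  linarith

theorem test_compl (hnb : Sampler η nb) (hr : RuleBal K r) (hη : η ≤ 1 / 100) (hx : Unit01 x)
    (ho : Unit01 o) (hs : frac (fun z => ¬ (testGate nb ρ tk r z).Sat η x (o z)) ≤ η) {W : P → A}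
    (hW : ∀ p s, (r p s).eval inp W = true) {ε : ℝ} (hb : frac (BadW ρ x inp W) ≤ ε) :
    mean o ≤ η + pd (fun z => x (z, ρ none)) (encb S G W) + pd (fun z => x (z, tk)) (encb S G W) +
      Fintype.card A / (1 / 10) * pd (fun z => x (z, ρ none)) (encb S G W) +
      Fintype.card A * η + cM A k K * ε := by
  refine le_trans (mean_le_frac (fun z => (ho z).2) fun z hz => ?_)
    (frac_or_le' (frac_or_le' (frac_or_le' (frac_or_le' (frac_or_le' hs le_rfl) le_rfl)
      ((frac_fst (Y := A × S × G) _).le.trans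
        (frac_rows (fun z => x (z, ρ none) ≠ bv (encb S G W z)) (γ := 1 / 10) (by norm_num))))
      (frac_sbad' hnb (u := fun z => x (z, ρ none)) fun _ => hx _))
      ((frac_rdc hr _).trans (mul_le_mul_of_nonneg_left hb (cM_nonneg A k K))))
  simp only [not_or, not_not] at hz
  obtain ⟨⟨⟨⟨⟨h1, h2⟩, h3⟩, h4⟩, h5⟩, h6⟩ := hz
  refine (sat_mk' h1 (b := false) fun y hy => ?_).le
  classical
  refine decide_eq_false (not_not.2 ?_)
  have h7 : |y (.inl false) - x (z, ρ none)| ≤ η := hy (.inl false)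
  have h8 : |y (.inl true) - x (z, tk)| ≤ η := hy (.inl true)
  rw [h2] at h7
  rw [h3] at h8
  refine ⟨?_, ⟨W z.1, h7.trans (by linarith), fun b => ?_⟩, ?_⟩
  · rw [round_eq (lt_of_le_of_lt h8 (by linarith))]
    linarith
  · have h9 := read_mean (fun h => h5 ⟨b, h⟩) fun i => hy (.inr (.inl (b, i)))
    have h10 := abs_mean_sub_bv_le (u := fun t : S × G => x ((z.1, b, t), ρ none)) (fun _ => hx _)
      (decide (W z.1 = b)) le_rfl
      (p := fun t => x ((z.1, b, t), ρ none) ≠ bv (encb S G W (z.1, b, t))) fun t ht => by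
        rw [not_not.1 ht]
        simp [encb]
    have h11 := not_le.1 fun h => h4 ⟨b, h⟩
    have h12 := abs_sub_le (mean fun i => y (.inr (.inl (b, i))))
      (rowMean (fun z => x (z, ρ none)) z.1 b) (bv (decide (W z.1 = b)))
    exact h12.trans (le_trans (add_le_add h9 h10) (by linarith))
  · rw [rval_eq (by linarith) (fun d => hy (.inr (.inr d))) h6, hW]

/-- The three properties of the module of a code. -/
theorem code_sem {t : ℕ} {x : Cell P A S G × (Option (Fin (t + 1) × Bool) ⊕ Option (Fin c)) → ℝ}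
    {N M θ' h2 : ℝ} (hN : N = Fintype.card A) (hM : M = cM A k K) (hh : 0 < h) (hh2 : 0 < h2)
    (t1 : (1 + M) * θ' ≤ θ / 2) (t2 : 20 * N * θ' ≤ h / 4) (ht : h / 2 ^ t ≤ h2 / 4)
    (h0 : 0 < η) (e1 : 100 * η ≤ 1) (e2 : 16 * N * (1 + 2 * M) * η ≤ h)
    (e3 : (16 * N * (1 + 2 * M) + 2) * η ≤ h2 / 4) (e4 : (1 + M * (1 + N + c)) * η ≤ θ / 2)
    (e5 : 20 * N * (1 + N) * η ≤ h / 4) (e6 : (1 + N + M * c) * η ≤ h2 / 2)
    (hs : Sampler η nb) (hb : L.Bal K) (hg : L.Good inp Δ θ h) (hx : Unit01 x)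
    (hok : (codeMod t nb L).Ok η x) (hi : ∀ j, tvd (ext x (some j)) (encb S G (inp j)) ≤ η) :
    (mean (reg x none) ≤ θ' → ∃ W, L.Valid inp W ∧
      tvd (ext x none) (encb S G W) ≤ 2 * mean (reg x none) + h2) ∧
    (∀ W, L.Valid inp W → tvd (ext x none) (encb S G W) ≤ h / (20 * N) →
      pd (reg x (some (Fin.ofNat (t + 1) t, false))) (encb S G W) ≤ h2) ∧
    ∀ W, L.Valid inp W → mean (reg x none) ≤
      (1 + 10 * N + M + 20 * N / h) * pd (ext x none) (encb S G W) + h2 := by
  have hN0 : 0 < N := by rw [hN]; exact_mod_cast Fintype.card_pos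
  have hM0 : 0 ≤ M := hM ▸ cM_nonneg _ _ _
  have hη : η ≤ 1 / 100 := by linarith
  have ho : Unit01 (reg x none) := fun _ => hx _
  have hv : ∀ i ≤ t, (Fin.ofNat (t + 1) i).val = i := fun i hi => Nat.mod_eq_of_lt (by omega)
  have cor : ∀ W0 W, L.Valid inp W → frac (fun p => W0 p ≠ W p) +
      20 * N * tvd (ext x none) (encb S G W0) ≤ h →
      pd (reg x (some (Fin.ofNat (t + 1) t, false))) (encb S G W) ≤ h2 / 2 := by
    intro W0 W hW hB
    have := correct (tw := Sum.inr none) (t := t)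
      (tk := fun i => Sum.inl (some (Fin.ofNat (t + 1) i, false)))
      (tr := fun i => Sum.inl (some (Fin.ofNat (t + 1) i, true))) hs hb hg hη hx
      (by simpa only [codeMod, hv 0 (Nat.zero_le _), if_true] using
        hok (some (Fin.ofNat (t + 1) 0, false)))
      (fun i hi => by
        simpa only [codeMod, hv (i + 1) hi, Nat.succ_ne_zero, if_false, Nat.add_sub_cancel] using
          hok (some (Fin.ofNat (t + 1) (i + 1), false)))
      (fun i _ => hok (some (Fin.ofNat (t + 1) i, true))) (by rw [← hN, ← hM]; linarith) hW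
      (hN ▸ hB)
    rw [← hN, ← hM] at this
    exact this.trans (by linarith)
  have cor' : ∀ W, L.Valid inp W → tvd (ext x none) (encb S G W) ≤ h / (20 * N) →
      pd (reg x (some (Fin.ofNat (t + 1) t, false))) (encb S G W) ≤ h2 / 2 := by
    intro W hW hc
    refine cor W W hW ?_
    have h1 : frac (fun p => W p ≠ W p) = 0 := by simp [frac]
    rw [le_div_iff₀' (by positivity)] at hc
    linarith
  refine ⟨fun hm => ?_, fun W hW hc => (cor' W hW hc).trans (by linarith), fun W hW => ?_⟩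
  · have h1 := test_word (ρ := Sum.inr) (o := reg x none) hs hη hx ho (hok none)
    have h3 := test_tst (ρ := Sum.inr) (o := reg x none) hb.tst hη ho (hok none) (frac_badW h1 hi)
    rw [← hN] at h1
    rw [← hN, ← hM] at h3
    have h4 := mul_le_mul_of_nonneg_left hm hM0
    obtain ⟨W, hW, h5⟩ := hg.sound _ (h3.trans (by linarith))
    have h6 := mul_le_mul_of_nonneg_left (h1.trans (add_le_add_left (add_le_add_right hm η) _))
      (by positivity : 0 ≤ 20 * N)
    have h7 := cor _ W hW (le_trans (add_le_add h5 h6) (by linarith))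
    have h8 := test_close (ρ := Sum.inr) (o := reg x none) hη ho (hok none) (encb S G W)
    have h9 : 0 ≤ mean (reg x none) := le_mean_of_le fun z => (ho z).1
    have h10 : 0 ≤ (N + M * c) * η := by positivity
    exact ⟨W, hW, h8.trans (le_trans (add_le_add_right h7 _) (by linarith))⟩
  · have p0 : 0 ≤ pd (ext x none) (encb S G W) := frac_nonneg _
    rcases le_total (pd (ext x none) (encb S G W)) (h / (20 * N)) with hc | hc
    · have h1 := cor' W hW ((tvd_le_pd _ _).trans hc)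
      have h3 : mean (reg x none) ≤ η + pd (ext x none) (encb S G W) +
          pd (reg x (some (Fin.ofNat (t + 1) t, false))) (encb S G W) +
          Fintype.card A / (1 / 10) * pd (ext x none) (encb S G W) + Fintype.card A * η +
          cM A k K * (pd (ext x none) (encb S G W) + c * η) :=
        test_compl (ρ := Sum.inr) hs hb.tst hη hx ho (hok none) hW (frac_badW (tvd_le_pd _ _) hi)
      rw [← hN, ← hM] at h3
      have h4 : 0 ≤ 20 * N / h * pd (ext x none) (encb S G W) := by positivity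
      linarith
    · have h1 : mean (reg x none) ≤ 1 := mean_le_of_le fun z => (ho z).2
      have h3 : 1 ≤ 20 * N / h * pd (ext x none) (encb S G W) := by
        rw [div_le_iff₀' (by positivity)] at hc
        rw [div_mul_eq_mul_div, le_div_iff₀ hh]
        linarith
      have h4 : 0 ≤ (1 + 10 * N + M) * pd (ext x none) (encb S G W) := by positivity
      linarith

end Sem

section PT

variable {α : Type} [Enc α] {c k m : ℕ} {P S : TF α} {A G : CT} {T : Type} [Enc T]
  {nb : ∀ a, S.T a × G.T → Fin m → S.T a × G.T}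

theorem dpt_rowc (hnb : ∀ i, DPT fun x : Σ a, S.T a × G.T => nb x.1 x.2 i)
    {f : (Σ a, Cell (P.T a) A.T (S.T a) G.T) → A.T} (hf : DPT f) (i : Fin m) :
    DPT fun x : Σ a, Cell (P.T a) A.T (S.T a) G.T => rowc (nb x.1) x.2 (f x) i :=
  DPT.pair (DPT.fst DPT.ssnd) (DPT.pair hf ((hnb i).comp
    (f := fun x : Σ a, Cell (P.T a) A.T (S.T a) G.T => ⟨x.1, x.2.2.2⟩)
    (DPT.smk DPT.id.sfst (DPT.snd (DPT.snd DPT.ssnd)))))

theorem gatePT_maj (hnb : ∀ i, DPT fun x : Σ a, S.T a × G.T => nb x.1 x.2 i) (t : T) :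
    GatePT fun x : Σ a, Cell (P.T a) A.T (S.T a) G.T => majGate (nb x.1) t x.2 :=
  Glue.gatePT_mk' (fun i => DPT.pair (dpt_rowc hnb (DPT.fst (DPT.snd DPT.ssnd)) i) (DPT.const t))
    (Glue.finSel_const _)

theorem gatePT_test (hnb : ∀ i, DPT fun x : Σ a, S.T a × G.T => nb x.1 x.2 i)
    (ρ : Option (Fin c) → T) (tk : T) {r : ∀ a, P.T a → S.T a → Rule c k (P.T a) A.T Bool}
    (hr : RulePT (B := fun _ => Bool) r) :
    GatePT fun x : Σ a, Cell (P.T a) A.T (S.T a) G.T => testGate (nb x.1) ρ tk (r x.1) x.2 := by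
  classical
  refine Glue.gatePT_mk' ?_ (Glue.finSel_of_dpt
    (fun (t : ((Fin k → A.T) → Bool) × (Fin k → Fin k → Bool) × A.T)
      (y : Bool ⊕ (A.T × Fin m) ⊕ (Fin k × A.T) → ℝ) => decide (¬ TPass t.1 t.2.1 t.2.2 y))
    (dpt_data (B := ⟨Bool⟩) hr))
  rintro (b | d | d)
  · exact DPT.pair DPT.ssnd (DPT.const _)
  · exact DPT.pair (dpt_rowc hnb (DPT.const d.1) d.2) (DPT.const _)
  · exact dpt_rsrc (B := ⟨Bool⟩) hr ρ d

theorem modPT_code (t : ℕ) (hnb : ∀ i, DPT fun x : Σ a, S.T a × G.T => nb x.1 x.2 i)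
    {L : ∀ a, LCode c k (P.T a) (S.T a) A.T} (hL : LCode.IsPT L) :
    ModPT fun a => codeMod t (nb a) (L a) := by
  rintro (_ | ⟨i, _ | _⟩)
  · exact gatePT_test hnb _ _ hL.tst
  · exact gatePT_maj hnb _
  · exact gatePT_rule hL.cor _

end PT

end Phys

open Phys in
/-- T5a -/
theorem physCodeStmt (hS : SampStmt) : PhysCodeStmt := by
  intro A c k K θ h hθ hh
  obtain ⟨N, hN⟩ : ∃ N : ℝ, N = Fintype.card A.T := ⟨_, rfl⟩
  have hN0 : 0 < N := by rw [hN]; exact_mod_cast Fintype.card_pos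
  obtain ⟨M, hM⟩ : ∃ M, M = cM A.T k K := ⟨_, rfl⟩
  have hM0 : 0 ≤ M := hM ▸ cM_nonneg _ _ _
  obtain ⟨θ', hθ', t1, t2⟩ : ∃ θ' : ℝ, 0 < θ' ∧ (1 + M) * θ' ≤ θ / 2 ∧ 20 * N * θ' ≤ h / 4 := by
    obtain ⟨θ', h1, h2⟩ := (((ev_mul_le (1 + M) (half_pos hθ)).and
      (ev_mul_le (20 * N) (by positivity : 0 < h / 4))).and self_mem_nhdsWithin).exists
    exact ⟨θ', h2, h1⟩
  refine ⟨θ', 1 + 10 * N + M + 20 * N / h, h / (20 * N), hθ', by positivity, by positivity,
    fun h2 G hh2 => ?_⟩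
  obtain ⟨t, ht⟩ : ∃ t : ℕ, h / 2 ^ t ≤ h2 / 4 := by
    obtain ⟨t, ht⟩ := pow_unbounded_of_one_lt (h / (h2 / 4)) (one_lt_two (α := ℝ))
    refine ⟨t, ?_⟩
    rw [div_lt_iff₀' (by positivity)] at ht
    rw [div_le_iff₀ (by positivity)]
    exact ht.le
  obtain ⟨η, ⟨⟨⟨⟨⟨e1, e2⟩, e3⟩, e4⟩, e5⟩, e6⟩, h0⟩ := (((((((ev_mul_le 100 one_pos).and
    (ev_mul_le (16 * N * (1 + 2 * M)) hh)).and
    (ev_mul_le (16 * N * (1 + 2 * M) + 2) (by positivity : 0 < h2 / 4))).and
    (ev_mul_le (1 + M * (1 + N + c)) (half_pos hθ))).and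
    (ev_mul_le (20 * N * (1 + N)) (by positivity : 0 < h / 4))).and
    (ev_mul_le (1 + N + M * c) (half_pos hh2))).and self_mem_nhdsWithin).exists
  obtain ⟨m, hm, hsamp⟩ := hS η h0
  have : Nonempty (Fin m) := ⟨⟨0, hm⟩⟩
  refine ⟨η, ⟨Option (Fin (t + 1) × Bool)⟩, some (Fin.ofNat (t + 1) t, false), none, h0,
    fun α _ P S L hL => ?_⟩
  obtain ⟨nb, hnb, hnb'⟩ := hsamp α (Glue.tfProd S (Glue.tfConst α G))
  refine ⟨fun a => codeMod t (nb a) (L a), modPT_code t hnb hL, ?_⟩
  intro a inp Δ hb hg x hx hok hi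
  exact code_sem hN hM hh hh2 t1 t2 ht h0 e1 e2 e3 e4 e5 e6 (hnb' a).1 hb hg hx hok hi

end Vale.Agent.P330
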