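import Vale.Agent.P330.Glue

/-!
P330, T5c: the gadget of a line system.
-/

namespace Vale.Agent.P330

open Vale.Agent.Lib.PolyTime hiding C P
open Vale.Agent.Lib.Dep

namespace Glue

/-! ### Counting on cells -/

section Count

variable {X Y : Type} [Fintype X] [Fintype Y]

theorem frac_prod_mean (p : X → Y → Prop) :
    frac (fun x : X × Y => p x.1 x.2) = mean fun a => frac (p a) := by
  classical
  unfold mean frac
  rw [← Finset.sum_div, div_div, Fintype.card_prod, mul_comm (Fintype.card X), Nat.cast_mul]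
  congr 1
  simp only [Finset.card_filter, Nat.cast_sum, Fintype.sum_prod_type]

theorem mean_ite (p : X → Prop) [DecidablePred p] (t : ℝ) :
    mean (fun a => if p a then t else 0) = frac p * t := by
  unfold mean frac
  rw [← Finset.sum_filter, Finset.sum_const, nsmul_eq_mul, div_mul_eq_mul_div]
  congr

theorem frac_false : frac (fun _ : X => False) = 0 := by
  simp [frac]

theorem frac_true [Nonempty X] : frac (fun _ : X => True) = 1 := by
  have : (Fintype.card X : ℝ) ≠ 0 := by exact_mod_cast Fintype.card_ne_zero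
  simp [frac, this]

theorem frac_eq_one (a : X) : frac (fun x : X => x = a) = 1 / Fintype.card X := by
  classical
  unfold frac
  congr 1
  have h : ∀ s : Finset X, (∀ x, x ∈ s ↔ x = a) → (s.card : ℝ) = 1 := fun s hs => by
    rw [show s = {a} from Finset.ext fun x => by simp [hs]]; simp
  exact h _ fun x => by simp

theorem frac_and_prod (p : X → Prop) (q : Y → Prop) :
    frac (fun x : X × Y => p x.1 ∧ q x.2) = frac p * frac q := by
  classical
  rw [frac_prod_mean fun a b => p a ∧ q b, ← mean_ite]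
  congr 1
  funext a
  by_cases h : p a
  · simp [h]
  · simp [h, frac_false]

theorem frac_fst [Nonempty Y] (p : X → Prop) : frac (fun x : X × Y => p x.1) = frac p := by
  have h := frac_and_prod p fun _ : Y => True
  rw [frac_true, mul_one] at h
  rw [← h]
  exact frac_congr fun _ => by simp

theorem frac_snd [Nonempty X] (q : Y → Prop) : frac (fun x : X × Y => q x.2) = frac q := by
  have h := frac_and_prod (fun _ : X => True) q
  rw [frac_true, one_mul] at h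
  rw [← h]
  exact frac_congr fun _ => by simp

end Count

section Cells

variable {P A S G : Type}

theorem encb_inj [DecidableEq A] [Nonempty S] [Nonempty G] {W W' : P → A}
    (h : encb S G W = encb S G W') : W = W' := by
  funext p
  have := congrFun h (p, W' p, Classical.arbitrary S, Classical.arbitrary G)
  simpa [encb] using this

variable [Fintype P] [Fintype A] [Fintype S] [Fintype G]

theorem frac_grid [Nonempty P] [Nonempty A] [Nonempty S] [Nonempty G] {n : ℕ} (j : Fin (n + 1)) :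
    frac (fun c : Cell P A S (Fin (n + 1) × G) => c.2.2.2.1 = j) = 1 / ((n : ℝ) + 1) := by
  rw [frac_snd (X := P) fun y : A × S × Fin (n + 1) × G => y.2.2.1 = j,
    frac_snd (X := A) fun y : S × Fin (n + 1) × G => y.2.1 = j,
    frac_snd (X := S) fun y : Fin (n + 1) × G => y.1 = j,
    frac_fst (Y := G) fun y : Fin (n + 1) => y = j, frac_eq_one]
  simp

theorem frac_grid_ne [DecidableEq A] [Nonempty S] [Nonempty G] {n : ℕ} (j : Fin (n + 1))
    (W W' : P → A) :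
    frac (fun p => W p ≠ W' p) / Fintype.card A / ((n : ℝ) + 1) ≤
      frac fun c : Cell P A S (Fin (n + 1) × G) =>
        c.2.2.2.1 = j ∧ encb S _ W c ≠ encb S _ W' c := by
  classical
  have h1 : frac (fun c : Cell P A S (Fin (n + 1) × G) =>
      W c.1 ≠ W' c.1 ∧ c.2.1 = W c.1 ∧ c.2.2.2.1 = j) =
      frac (fun p => W p ≠ W' p) / Fintype.card A / ((n : ℝ) + 1) := by
    rw [frac_prod_mean fun p (y : A × S × Fin (n + 1) × G) =>
      W p ≠ W' p ∧ y.1 = W p ∧ y.2.2.1 = j, div_div, div_eq_mul_one_div, ← mean_ite]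
    congr 1
    funext p
    by_cases h : W p = W' p
    · simp [h, frac_false]
    · simp only [ne_eq, h, not_false_eq_true, true_and, if_true]
      rw [frac_and_prod (fun a => a = W p) fun y : S × Fin (n + 1) × G => y.2.1 = j,
        frac_snd (X := S) fun y : Fin (n + 1) × G => y.1 = j,
        frac_fst (Y := G) fun y : Fin (n + 1) => y = j, frac_eq_one, frac_eq_one]
      simp [mul_comm]
  rw [← h1]
  refine frac_mono fun c hc => ⟨hc.2.2, ?_⟩
  have h2 : ¬ W' c.1 = W c.1 := fun h => hc.1 h.symm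
  simp [encb, hc.2.1, h2]

end Cells

/-! ### The registers of the gadget -/

section Regs

variable (B RC RR J : Type)

/-- the registers: Brouwer block, two codes, three rules -/
abbrev Regs : Type := B ⊕ (RC ⊕ RC) ⊕ RR ⊕ RR ⊕ RR

variable {B RC RR J}

/-- code of `X` -/
def cX (r : RC) : Regs B RC RR := Sum.inr (Sum.inl (Sum.inl r))
/-- code of `Y` -/
def cY (r : RC) : Regs B RC RR := Sum.inr (Sum.inl (Sum.inr r))
/-- successor -/
def rS (r : RR) : Regs B RC RR := Sum.inr (Sum.inr (Sum.inl r))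
/-- predecessor -/
def rP (r : RR) : Regs B RC RR := Sum.inr (Sum.inr (Sum.inr (Sum.inl r)))
/-- output -/
def rO (r : RR) : Regs B RC RR := Sum.inr (Sum.inr (Sum.inr (Sum.inr r)))

/-- The word is in the register `w`, the inputs are external. -/
def kap {R : Type} (w : R) : Option J → R ⊕ J := fun o => o.elim (Sum.inl w) Sum.inr

/-- the external registers of the Brouwer block -/
def kapB (rk rt : RC) (ro : RR) : Fin 6 → Regs B RC RR ⊕ J :=
  ![Sum.inl (cX rk), Sum.inl (rS ro), Sum.inl (cX rt), Sum.inl (cY rk), Sum.inl (rP ro),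
    Sum.inl (cY rt)]

/-- the glued module -/
def glue {C : Type} (b0 b1 : B) (rk rt : RC) (ro : RR) (mB : Mod C B (Fin 6))
    (mC : Mod C RC (Option J)) (mS mP mO : Mod C RR (Option J)) : Mod C (Regs B RC RR) J :=
  fun c r => match r with
    | Sum.inl r => ren Sum.inl (kapB rk rt ro) mB c r
    | Sum.inr (Sum.inl (Sum.inl r)) => ren cX (kap (Sum.inl b0)) mC c r
    | Sum.inr (Sum.inl (Sum.inr r)) => ren cY (kap (Sum.inl b1)) mC c r
    | Sum.inr (Sum.inr (Sum.inl r)) => ren rS (kap (cX rk)) mS c r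
    | Sum.inr (Sum.inr (Sum.inr (Sum.inl r))) => ren rP (kap (cY rk)) mP c r
    | Sum.inr (Sum.inr (Sum.inr (Sum.inr r))) => ren rO (kap (cX rk)) mO c r

theorem modPT_glue {α : Type} [Enc α] {C : α → Type} [∀ a, Enc (C a)] [Enc B] [Enc RC] [Enc RR]
    [Enc J] [Finite B] [Finite RC] [Finite RR] [Finite J] [EncInj B] [EncInj RC] [EncInj RR]
    [EncInj J] (b0 b1 : B) (rk rt : RC) (ro : RR) {mB : ∀ a, Mod (C a) B (Fin 6)}
    {mC : ∀ a, Mod (C a) RC (Option J)} {mS mP mO : ∀ a, Mod (C a) RR (Option J)}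
    (hB : ModPT mB) (hC : ModPT mC) (hS : ModPT mS) (hP : ModPT mP) (hO : ModPT mO) :
    ModPT fun a => glue b0 b1 rk rt ro (mB a) (mC a) (mS a) (mP a) (mO a) := by
  rintro (r | (r | r) | r | r | r)
  · exact gatePT_ren _ _ hB r
  · exact gatePT_ren _ _ hC r
  · exact gatePT_ren _ _ hC r
  · exact gatePT_ren _ _ hS r
  · exact gatePT_ren _ _ hP r
  · exact gatePT_ren _ _ hO r

end Regs

end Glue

open Glue

theorem gadgetStmt (hS : SampStmt) (hB : BStmt) (hC : PhysCodeStmt) (hR : PhysRuleStmt) :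
    GadgetStmt := by
  intro A c k K Δ θ h hΔ hθ hh h0 ho G' hh0 hho
  obtain ⟨θ', Cc, h1, hθ', hCc, hh1, hC⟩ := hC A c k K θ h hθ hh
  have hA : (0 : ℝ) < Fintype.card A.T := by exact_mod_cast Fintype.card_pos
  obtain ⟨h1B, hh1B, hB⟩ := hB (Δ / Fintype.card A.T) (div_pos hΔ hA)
  obtain ⟨hb, hb0, hb1, hb2, hb3⟩ : ∃ hb : ℝ, 0 < hb ∧ hb ≤ h0 ∧ hb ≤ h1B ∧ hb ≤ h1 :=
    ⟨min h0 (min h1B h1), by positivity, min_le_left _ _,
      (min_le_right _ _).trans (min_le_left _ _), (min_le_right _ _).trans (min_le_right _ _)⟩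
  obtain ⟨θb, hθ0, hθ1, hθ2⟩ : ∃ θb : ℝ, 0 < θb ∧ θb ≤ θ' ∧ θb ≤ hb / 4 :=
    ⟨min θ' (hb / 4), by positivity, min_le_left _ _, min_le_right _ _⟩
  obtain ⟨h2, ηB, T, hh2, hηB, hB⟩ := hB hb θb Cc hb0 hb2 hθ0 hCc
  obtain ⟨ηR, RR, ro, hηR, hR⟩ :=
    hR A c k K (min h2 ho) (ctProd (ctFin T.g) G') (by positivity)
  obtain ⟨hc, hc0, hc1, hc2, hc3⟩ : ∃ hc : ℝ, 0 < hc ∧ hc ≤ ηR ∧ hc ≤ h2 ∧ hc ≤ hb / 2 :=
    ⟨min ηR (min h2 (hb / 2)), by positivity, min_le_left _ _,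
      (min_le_right _ _).trans (min_le_left _ _), (min_le_right _ _).trans (min_le_right _ _)⟩
  obtain ⟨ηC, RC, rk, rt, hηC, hC⟩ := hC hc (ctProd (ctFin T.g) G') hc0
  obtain ⟨Ks, -, hS⟩ := hS ηB hηB
  obtain ⟨η, hη0, hη1, hη2, hη3⟩ : ∃ η : ℝ, 0 < η ∧ η ≤ ηB ∧ η ≤ ηR ∧ η ≤ ηC :=
    ⟨min ηB (min ηR ηC), by positivity, min_le_left _ _,
      (min_le_right _ _).trans (min_le_left _ _), (min_le_right _ _).trans (min_le_right _ _)⟩
  refine ⟨T.g, η, ctSum (ctFin (T.ρ + 1)) (ctSum (ctSum RC RC) (ctSum RR (ctSum RR RR))),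
    Sum.inl (0 : Fin (T.ρ + 2)), Sum.inl (1 : Fin (T.ρ + 2)), rO ro, hη0, ?_⟩
  intro α _ P S L hL
  obtain ⟨nb, hnb, hnbS⟩ := hS α (tfCell P A S (ctProd (ctFin T.g) G'))
  obtain ⟨mC, hmC, hC⟩ := hC α P S (fun a => (L a).toLCode) hL.code
  obtain ⟨mS, hmS, hRS⟩ := hR α P S (fun a => (L a).suc) hL.suc
  obtain ⟨mP, hmP, hRP⟩ := hR α P S (fun a => (L a).pre) hL.pre
  obtain ⟨mO, hmO, hRO⟩ := hR α P S (fun a => (L a).out) hL.out
  refine ⟨fun a => glue (0 : Fin (T.ρ + 2)) (1 : Fin (T.ρ + 2)) rk rt ro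
    (T.mod (nb a) (fun c => c.2.2.2.1) (encb (S.T a) (Fin (T.g + 1) × G'.T) (L a).st))
    (mC a) (mS a) (mP a) (mO a), ?_, ?_⟩
  · refine modPT_glue _ _ _ _ _ (modPT_bt T hnb ?_ ?_) hmC hmS hmP hmO
    · exact DPT.fst (DPT.snd (DPT.snd (DPT.snd DPT.ssnd)))
    · have h1 : DPT fun x : Σ a, Cell (P.T a) A.T (S.T a) (Fin (T.g + 1) × G'.T) =>
          (⟨x.1, x.2.1⟩ : Σ a, P.T a) := DPT.smk (DPT.sfst DPT.id) (DPT.fst DPT.ssnd)
      exact DPT.decide (DPr.eq (hL.st.comp h1) (DPT.fst (DPT.snd DPT.ssnd)))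
  intro a inp hbal hgood hstart x hx hok hinp
  have harith : ∀ t : ℝ, t ≤ θb → 2 * t + hc ≤ hb := fun t ht => by linarith
  have okB := ok_pull (ι := Sum.inl) (κ := kapB rk rt ro) (fun _ _ => rfl) hη1 hok
  have okX := ok_pull (ι := cX) (κ := kap (Sum.inl (0 : Fin (T.ρ + 2)))) (fun _ _ => rfl) hη3 hok
  have okY := ok_pull (ι := cY) (κ := kap (Sum.inl (1 : Fin (T.ρ + 2)))) (fun _ _ => rfl) hη3 hok
  have okS := ok_pull (ι := rS) (κ := kap (cX rk)) (fun _ _ => rfl) hη2 hok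
  have okP := ok_pull (ι := rP) (κ := kap (cY rk)) (fun _ _ => rfl) hη2 hok
  have okO := ok_pull (ι := rO) (κ := kap (cX rk)) (fun _ _ => rfl) hη2 hok
  obtain ⟨sX, kX, tX⟩ := hC a inp Δ hbal.code hgood _ (unit01_pull hx) okX
    fun j => (hinp j).trans hη3
  obtain ⟨sY, kY, tY⟩ := hC a inp Δ hbal.code hgood _ (unit01_pull hx) okY
    fun j => (hinp j).trans hη3
  have kX' := fun W hW ht => ((tvd_le_pd _ _).trans (kX W hW ht)).trans hc1
  have kY' := fun W hW ht => ((tvd_le_pd _ _).trans (kY W hW ht)).trans hc1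
  have key := hB _ Ks (nb a) (fun c => c.2.2.2.1)
    (encb (S.T a) (Fin (T.g + 1) × G'.T) (L a).st)
    (fun u => ∃ W, (L a).Valid inp W ∧ u = encb (S.T a) (Fin (T.g + 1) × G'.T) W)
    (fun u v => ∃ W W', (L a).Step inp W W' ∧ u = encb (S.T a) (Fin (T.g + 1) × G'.T) W ∧
      v = encb (S.T a) (Fin (T.g + 1) × G'.T) W')
    _ (hnbS a).1 (fun j => frac_grid j) ?_ ?_ ?_ ?_ ⟨_, hstart.1, rfl⟩ ?_ ?_ (unit01_pull hx) okB
    ⟨?_, ?_, ?_⟩ ⟨?_, ?_, ?_⟩ ?_ ?_
  · rcases key with ⟨u, ⟨W, hW, rfl⟩, ht, hn⟩ | ⟨v, ⟨W, hW, rfl⟩, hne, ht, hn⟩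
    · refine Or.inl ⟨W, hW, fun ⟨W', hs⟩ => hn ⟨_, W, W', hs, rfl, rfl⟩, ht.trans hb1,
        fun U hU => ?_⟩
      exact (hRO a inp W U hbal.out hU _ (unit01_pull hx) okO (fun j => (hinp j).trans hη2)
        (kX' W hW (ht.trans hb3))).trans (min_le_right _ _)
    · exact Or.inr ⟨W, hW, fun h => hne (by rw [h]),
        fun ⟨W', hs⟩ => hn ⟨_, W', W, hs, rfl, rfl⟩, ht.trans hb1⟩
  · rintro _ _ ⟨W, hW, rfl⟩ ⟨W', hW', rfl⟩ hne j
    refine le_trans ?_ (frac_grid_ne j W W')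
    have := hgood.dist W W' hW hW' fun h => hne (by rw [h])
    gcongr
  · rintro _ _ ⟨W, W', hs, rfl, rfl⟩
    exact ⟨⟨W, hs.1, rfl⟩, W', hs.2.1, rfl⟩
  · rintro _ _ _ ⟨W, W', hs, rfl, rfl⟩ ⟨W2, W2', hs2, he, rfl⟩
    obtain rfl := encb_inj he
    congr 1
    funext p
    rw [← hs.2.2.1 p (Classical.arbitrary _), hs2.2.2.1]
  · rintro _ _ _ ⟨W, W', hs, rfl, rfl⟩ ⟨W2, W2', hs2, rfl, he⟩
    obtain rfl := encb_inj he
    congr 1
    funext p
    rw [← hs.2.2.2 p (Classical.arbitrary _), hs2.2.2.2]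
  · obtain ⟨W, hs⟩ := hstart.2.1
    exact ⟨_, _, W, hs, rfl, rfl⟩
  · rintro ⟨_, W, W', hs, rfl, he⟩
    obtain rfl := encb_inj he
    exact hstart.2.2 ⟨W, hs⟩
  · intro hm
    obtain ⟨W, hW, ht⟩ := sX (hm.trans hθ1)
    exact ⟨_, ⟨W, hW, rfl⟩, le_trans ht (harith _ hm)⟩
  · rintro _ ⟨W, hW, rfl⟩ ht
    exact ((tvd_le_pd _ _).trans (kX W hW (ht.trans hb3))).trans hc2
  · rintro _ ⟨W, hW, rfl⟩
    exact (tX W hW).trans (add_le_add_right hc2 _)
  · intro hm
    obtain ⟨W, hW, ht⟩ := sY (hm.trans hθ1)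
    exact ⟨_, ⟨W, hW, rfl⟩, le_trans ht (harith _ hm)⟩
  · rintro _ ⟨W, hW, rfl⟩ ht
    exact ((tvd_le_pd _ _).trans (kY W hW (ht.trans hb3))).trans hc2
  · rintro _ ⟨W, hW, rfl⟩
    exact (tY W hW).trans (add_le_add_right hc2 _)
  · rintro _ _ ⟨W, W', hs, rfl, rfl⟩ ht
    exact ((tvd_le_pd _ _).trans (hRS a inp W W' hbal.suc hs.2.2.1 _ (unit01_pull hx) okS
      (fun j => (hinp j).trans hη2) (kX' W hs.1 (ht.trans hb3)))).trans (min_le_left _ _)
  · rintro _ _ ⟨W, W', hs, rfl, rfl⟩ ht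
    exact ((tvd_le_pd _ _).trans (hRP a inp W' W hbal.pre hs.2.2.2 _ (unit01_pull hx) okP
      (fun j => (hinp j).trans hη2) (kY' W' hs.2.1 (ht.trans hb3)))).trans (min_le_left _ _)

end Vale.Agent.P330
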