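import Vale.Agent.P330.Phys.Rank

/-!
P330: the physical realisation of a family of rules.
-/

namespace Vale.Agent.P330.Phys

open Vale.Agent.Lib.PolyTime hiding C P
open Vale.Agent.Lib.Dep
open Finset

/-- a representative among the indices marked by `e` -/
noncomputable def pick {k : ℕ} (e : Fin k → Bool) (j : Fin k) : Fin k :=
  if h : ∃ i, e i = true then h.choose else j

theorem pick_spec {k : ℕ} {e : Fin k → Bool} {j : Fin k} (h : e j = true) : e (pick e j) = true := by
  unfold pick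
  rw [dif_pos ⟨j, h⟩]
  exact Exists.choose_spec (p := fun i => e i = true) ⟨j, h⟩

theorem pick_congr {k : ℕ} {e : Fin k → Bool} {i j : Fin k} (h : e j = true) :
    pick e i = pick e j := by
  unfold pick
  rw [dif_pos ⟨j, h⟩, dif_pos ⟨j, h⟩]

section Sem

variable {c k : ℕ} {P S A B G T : Type} [En P] [En S] [DecidableEq P] [DecidableEq S]

/-- the cell in which the rule looks for the symbol `a` at its `j`-th position -/
def rdc (r : P → S → Rule c k P A B) (z : Cell P A S G) (j : Fin k) (a : A) : Cell P A S G :=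
  (((r z.1 z.2.2.1).rd j).2, a, rank (fun x : P × S => ((r x.1 x.2).rd j).2) (z.1, z.2.2.1),
    z.2.2.2)

/-- the nodes read by a rule; `ρ` gives the registers of the words -/
def rsrc (ρ : Option (Fin c) → T) (r : P → S → Rule c k P A B) (z : Cell P A S G)
    (d : Fin k × A) : Cell P A S G × T :=
  (rdc r z d.1 d.2, ρ ((r z.1 z.2.2.1).rd d.1).1)

/-- the value of a rule on noisy readings; equal positions give equal symbols -/
noncomputable def rval [Nonempty A] (f : (Fin k → A) → B) (e : Fin k → Fin k → Bool)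
    (y : Fin k × A → ℝ) : B :=
  f fun j => dec fun a => y (pick (e j) j, a)

/-- the pattern of equal positions -/
def pat (r : Rule c k P A B) (j i : Fin k) : Bool := decide (r.rd i = r.rd j)

omit [En P] [En S] [DecidableEq S] in
theorem rd_pick (r : Rule c k P A B) (j : Fin k) : r.rd (pick (pat r j) j) = r.rd j :=
  of_decide_eq_true (pick_spec (e := pat r j) (decide_eq_true rfl))

/-- the gate of a rule -/
noncomputable def ruleGate [En A] [DecidableEq A] [Nonempty A] (ρ : Option (Fin c) → T)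
    (r : P → S → Rule c k P A A) (z : Cell P A S G) : Gate (Cell P A S G × T) :=
  Gate.mk' (rsrc ρ r z) fun y =>
    decide (rval (r z.1 z.2.2.1).fn (pat (r z.1 z.2.2.1)) y = z.2.1)

variable [Fintype P] [Fintype S] [Fintype A] [Fintype G] [Nonempty S] {K : ℝ}

theorem bal_rdc {r : P → S → Rule c k P A B} (h : RuleBal K r) (j : Fin k) (a : A) :
    Bal (Fintype.card A * (|K| + 1)) fun z : Cell P A S G => rdc r z j a := by
  classical
  refine Fib.bal fun w => ?_
  have h1 := fib_rank (h j) (w.1, w.2.2.1)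
  refine le_trans ?_ (mul_le_mul_of_nonneg_left h1 (Nat.cast_nonneg _))
  rw [← card_univ, ← Nat.cast_mul, Nat.cast_le, ← card_product]
  refine card_le_card_of_injOn (fun z => (z.2.1, (z.1, z.2.2.1))) (fun z hz => ?_)
    fun z hz z' hz' e => ?_
  · have h2 : rdc r z j a = w := by simpa using hz
    subst h2
    simp [rdc]
  · have h2 : rdc r z j a = w := by simpa using hz
    have h3 : rdc r z' j a = w := by simpa using hz'
    have h4 := congrArg (fun t => t.2.2.2) (h2.trans h3.symm)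
    simp only [Prod.mk.injEq] at e
    exact Prod.ext e.2.1 (Prod.ext e.1 (Prod.ext e.2.2 h4))

/-- the constant in the bound for bad readings -/
noncomputable def cM (A : Type) [Fintype A] (k : ℕ) (K : ℝ) : ℝ :=
  k * Fintype.card A * (Fintype.card A * (|K| + 1))

theorem cM_nonneg (A : Type) [Fintype A] (k : ℕ) (K : ℝ) : 0 ≤ cM A k K := by
  unfold cM
  positivity

theorem frac_rdc {r : P → S → Rule c k P A B} (h : RuleBal K r) (Bad : Cell P A S G → Prop) :
    frac (fun z : Cell P A S G => ∃ d : Fin k × A, Bad (rdc r z d.1 d.2)) ≤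
      cM A k K * frac Bad := by
  refine (frac_exists_le' fun d : Fin k × A => bal_rdc h d.1 d.2 Bad).trans (le_of_eq ?_)
  rw [Fintype.card_prod, Fintype.card_fin, cM]
  push_cast
  ring

variable [DecidableEq A] [Nonempty A]

/-- The cell is bad for one of the words. -/
def BadW (ρ : Option (Fin c) → T) (x : Cell P A S G × T → ℝ) (inp : Fin c → P → A) (W : P → A)
    (z : Cell P A S G) : Prop :=
  ∃ o, 2 / 5 < |x (z, ρ o) - bv (encb S G (o.elim W inp) z)|

omit [En P] [En S] [DecidableEq P] [DecidableEq S] [Nonempty S] [Nonempty A] in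
theorem frac_badW {ρ : Option (Fin c) → T} {x : Cell P A S G × T → ℝ} {inp : Fin c → P → A}
    {W : P → A} {ε η : ℝ} (h0 : tvd (fun z => x (z, ρ none)) (encb S G W) ≤ ε)
    (h1 : ∀ j, tvd (fun z => x (z, ρ (some j))) (encb S G (inp j)) ≤ η) :
    frac (BadW ρ x inp W) ≤ ε + c * η := by
  refine (frac_exists_le (ε := fun o : Option (Fin c) => o.elim ε fun _ => η) fun o => ?_).trans
    (le_of_eq ?_)
  · cases o
    exacts [h0, h1 _]
  · simp [Fintype.sum_option]

omit [Fintype P] [Fintype S] [Fintype A] [Fintype G] [Nonempty S] in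
theorem dec_read {ρ : Option (Fin c) → T} {r : P → S → Rule c k P A B} {z : Cell P A S G}
    {x : Cell P A S G × T → ℝ} {η : ℝ} (hη : η < 1 / 10) {y : Fin k × A → ℝ}
    (hy : ∀ d, |y d - x (rsrc ρ r z d)| ≤ η) {U : P → A} {j : Fin k}
    (h : ∀ a, |x (rsrc ρ r z (j, a)) - bv (encb S G U (rdc r z j a))| ≤ 2 / 5) :
    dec (fun a => y (j, a)) = U ((r z.1 z.2.2.1).rd j).2 := by
  refine dec_eq fun a => ?_
  have h1 := abs_sub_le (y (j, a)) (x (rsrc ρ r z (j, a))) (bv (encb S G U (rdc r z j a)))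
  have h2 := hy (j, a)
  have h3 := h a
  exact lt_of_le_of_lt h1 (by linarith)

omit [Fintype P] [Fintype S] [Fintype A] [Fintype G] [Nonempty S] in
/-- Good readings give the value of the rule. -/
theorem rval_eq {ρ : Option (Fin c) → T} {r : P → S → Rule c k P A B} {z : Cell P A S G}
    {x : Cell P A S G × T → ℝ} {η : ℝ} (hη : η < 1 / 10) {y : Fin k × A → ℝ}
    (hy : ∀ d, |y d - x (rsrc ρ r z d)| ≤ η) {inp : Fin c → P → A} {W : P → A}
    (h : ¬ ∃ d : Fin k × A, BadW ρ x inp W (rdc r z d.1 d.2)) :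
    rval (r z.1 z.2.2.1).fn (pat (r z.1 z.2.2.1)) y = (r z.1 z.2.2.1).eval inp W := by
  unfold rval Rule.eval
  congr 1
  funext j
  rw [← rd_pick (r z.1 z.2.2.1) j]
  exact dec_read hη hy fun a => not_lt.1 fun h1 => h ⟨(_, a), _, h1⟩

omit [Fintype P] [Fintype S] [Fintype A] [Fintype G] [Nonempty S] in
/-- Good readings outside `B` give the value of a safe rule. -/
theorem rval_safe {ρ : Option (Fin 0) → T} {r : P → S → Rule 0 k P A A} {z : Cell P A S G}
    {x : Cell P A S G × T → ℝ} {η : ℝ} (hη : η < 1 / 10) {y : Fin k × A → ℝ}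
    (hy : ∀ d, |y d - x (rsrc ρ r z d)| ≤ η) {W : P → A} {Bd : P → Prop} {v : A}
    (hs : (r z.1 z.2.2.1).Safe W Bd v)
    (h : ¬ ∃ d : Fin k × A, ¬ Bd (rdc r z d.1 d.2).1 ∧
      x (rdc r z d.1 d.2, ρ none) ≠ bv (encb S G W (rdc r z d.1 d.2))) :
    rval (r z.1 z.2.2.1).fn (pat (r z.1 z.2.2.1)) y = v := by
  classical
  obtain ⟨q, hq⟩ : ∃ q, q = r z.1 z.2.2.1 := ⟨_, rfl⟩
  have hn : ∀ j, (q.rd j).1 = none := fun j => by
    cases h : (q.rd j).1 with
    | none => rfl
    | some i => exact i.elim0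
  set val : Fin k → A := fun j => dec fun a => y (pick (pat q j) j, a) with hval
  have hc : ∀ i j, (q.rd i).2 = (q.rd j).2 → val i = val j := fun i j hij => by
    have h1 : q.rd i = q.rd j := Prod.ext ((hn i).trans (hn j).symm) hij
    have h2 : pat q i = pat q j := funext fun l => by simp only [pat, h1]
    simp only [hval, h2]
    rw [pick_congr (i := i) (j := j) (decide_eq_true rfl)]
  have hg : ∀ j, ¬ Bd (q.rd j).2 → val j = W (q.rd j).2 := fun j hj => by
    rw [← rd_pick q j] at hj ⊢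
    subst hq
    refine dec_read hη hy fun a => ?_
    have h1 : x (rsrc ρ r z (pick (pat (r z.1 z.2.2.1) j) j, a)) =
        bv (encb S G W (rdc r z (pick (pat (r z.1 z.2.2.1) j) j) a)) := by
      unfold rsrc
      rw [hn]
      exact not_not.1 fun h1 => h ⟨(_, a), hj, h1⟩
    rw [h1, sub_self, abs_zero]
    norm_num
  rw [← hq] at hs ⊢
  rw [← hs (fun p => if h : ∃ j, (q.rd j).2 = p then val h.choose else W p) fun p hp => ?_]
  · unfold rval Rule.eval
    congr 1
    funext j
    rw [hn j]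
    have h1 : ∃ i, (q.rd i).2 = (q.rd j).2 := ⟨j, rfl⟩
    simp only [Option.elim_none, dif_pos h1]
    exact (hc _ _ h1.choose_spec).symm
  · split_ifs with h1
    · rw [hg _ (by rwa [h1.choose_spec]), h1.choose_spec]
    · rfl

theorem rule_pd [En A] {ρ : Option (Fin c) → T} {r : P → S → Rule c k P A A} (hr : RuleBal K r)
    {x : Cell P A S G × T → ℝ} {η ε : ℝ} (hη : η < 1 / 10) {o : Cell P A S G → ℝ}
    (ho : frac (fun z => ¬ (ruleGate ρ r z).Sat η x (o z)) ≤ η) {inp : Fin c → P → A}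
    {W W' : P → A} (hW : ∀ p s, (r p s).eval inp W = W' p) (hb : frac (BadW ρ x inp W) ≤ ε) :
    pd o (encb S G W') ≤ η + cM A k K * ε := by
  refine le_trans (frac_mono fun z hz => ?_) (frac_or_le' ho ((frac_rdc hr _).trans
    (mul_le_mul_of_nonneg_left hb (cM_nonneg A k K))))
  by_contra hno
  rw [not_or, not_not] at hno
  refine hz (sat_mk' hno.1 fun y hy => ?_)
  rw [rval_eq hη hy hno.2, hW]
  rfl

end Sem

section PT

variable {α : Type} [Enc α] {c k : ℕ} {P S : TF α} {A B G : CT} {T : Type} [Enc T]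
  {r : ∀ a, P.T a → S.T a → Rule c k (P.T a) A.T B.T}

theorem dpt_ps : DPT fun x : Σ a, Cell (P.T a) A.T (S.T a) G.T =>
    (⟨x.1, (x.2.1, x.2.2.2.1)⟩ : Σ a, P.T a × S.T a) :=
  DPT.smk DPT.id.sfst (DPT.pair (DPT.fst DPT.ssnd) (DPT.fst (DPT.snd (DPT.snd DPT.ssnd))))

theorem dpt_rsrc (hr : RulePT r) (ρ : Option (Fin c) → T) (d : Fin k × A.T) :
    DPT fun x : Σ a, Cell (P.T a) A.T (S.T a) G.T => rsrc ρ (r x.1) x.2 d := by
  have h1 := (hr.rd d.1).comp (dpt_ps (G := G) (A := A))
  have h2 := (dpt_rank P S (f := fun a x => ((r a x.1 x.2).rd d.1).2) (DPT.snd (hr.rd d.1))).comp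
    (dpt_ps (G := G) (A := A))
  exact DPT.pair (DPT.pair (DPT.snd h1) (DPT.pair (DPT.const d.2) (DPT.pair h2
    (DPT.snd (DPT.snd (DPT.snd DPT.ssnd)))))) (Glue.dpt_fin ρ (DPT.fst h1))

/-- The data which determine the function of a gate. -/
theorem dpt_data (hr : RulePT r) : DPT fun x : Σ a, Cell (P.T a) A.T (S.T a) G.T =>
    ((r x.1 x.2.1 x.2.2.2.1).fn, pat (r x.1 x.2.1 x.2.2.2.1), x.2.2.1) := by
  refine DPT.pair (dpt_funMk fun v => ?_) (DPT.pair (dpt_funMk fun j => dpt_funMk fun i => ?_)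
    (DPT.fst (DPT.snd DPT.ssnd)))
  · exact hr.fn.comp (f := fun x : Σ a, Cell (P.T a) A.T (S.T a) G.T =>
      ⟨x.1, ((x.2.1, x.2.2.2.1), v)⟩) (DPT.smk DPT.id.sfst (DPT.pair (DPT.pair (DPT.fst DPT.ssnd)
        (DPT.fst (DPT.snd (DPT.snd DPT.ssnd)))) (DPT.const v)))
  · exact DPT.decide (DPr.eq ((hr.rd i).comp dpt_ps) ((hr.rd j).comp dpt_ps))

theorem gatePT_rule {r : ∀ a, P.T a → S.T a → Rule c k (P.T a) A.T A.T} (hr : RulePT r)
    (ρ : Option (Fin c) → T) :
    GatePT fun x : Σ a, Cell (P.T a) A.T (S.T a) G.T => ruleGate ρ (r x.1) x.2 :=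
  Glue.gatePT_mk' (dpt_rsrc hr ρ) (Glue.finSel_of_dpt
    (fun (t : ((Fin k → A.T) → A.T) × (Fin k → Fin k → Bool) × A.T) (y : Fin k × A.T → ℝ) =>
      decide (rval t.1 t.2.1 y = t.2.2)) (dpt_data hr))

end PT

end Phys

open Phys in
/-- T5b -/
theorem physRuleStmt : PhysRuleStmt := by
  intro A c k K h2 G hh
  obtain ⟨η, ⟨h1, h3⟩, h0⟩ := (((ev_mul_le 20 one_pos).and
    (ev_mul_le (1 + cM A.T k K * (1 + c)) hh)).and self_mem_nhdsWithin).exists
  refine ⟨η, ⟨Unit⟩, (), h0, fun α _ P S r hr =>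
    ⟨fun a z _ => ruleGate Sum.inr (r a) z, fun _ => gatePT_rule hr _, ?_⟩⟩
  intro a inp W W' hb hW x _ hx hi hw
  refine (rule_pd (ρ := Sum.inr) hb (by linarith) (hx ()) hW (frac_badW hw hi)).trans ?_
  linarith

end Vale.Agent.P330
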