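import Vale.Agent.P330.Stmts

/-!
P330: elementary facts about fractions, means and gates used by the physical realisation.
-/

namespace Vale.Agent.P330.Phys

open Finset

section Frac

variable {C X Y : Type} [Fintype C] [Fintype X] [Fintype Y]

theorem mean_mono {f g : C → ℝ} (h : ∀ c, f c ≤ g c) : mean f ≤ mean g :=
  div_le_div_of_nonneg_right (sum_le_sum fun c _ => h c) (Nat.cast_nonneg _)

theorem mean_add (f g : C → ℝ) : mean (fun c => f c + g c) = mean f + mean g := by
  unfold mean
  rw [sum_add_distrib, add_div]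

theorem mean_mul (a : ℝ) (f : C → ℝ) : mean (fun c => a * f c) = a * mean f := by
  unfold mean
  rw [← mul_sum, mul_div_assoc]

theorem mean_const [Nonempty C] (a : ℝ) : mean (fun _ : C => a) = a := by
  have : (Fintype.card C : ℝ) ≠ 0 := by exact_mod_cast Fintype.card_ne_zero
  unfold mean
  rw [sum_const, card_univ, nsmul_eq_mul]
  field_simp

theorem mean_le_of_le [Nonempty C] {f : C → ℝ} {a : ℝ} (h : ∀ c, f c ≤ a) : mean f ≤ a :=
  (mean_mono h).trans (mean_const a).le

theorem le_mean_of_le [Nonempty C] {f : C → ℝ} {a : ℝ} (h : ∀ c, a ≤ f c) : a ≤ mean f :=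
  (mean_const a).ge.trans (mean_mono h)

open Classical in
theorem frac_eq_mean (p : C → Prop) : frac p = mean fun c => if p c then 1 else 0 := by
  unfold frac mean
  rw [sum_boole]

theorem frac_nonneg (p : C → Prop) : 0 ≤ frac p := by
  unfold frac
  positivity

theorem frac_le_mean {p : C → Prop} {f : C → ℝ} (h0 : ∀ c, 0 ≤ f c) (h1 : ∀ c, p c → 1 ≤ f c) :
    frac p ≤ mean f := by
  rw [frac_eq_mean]
  refine mean_mono fun c => ?_
  split_ifs with h
  exacts [h1 c h, h0 c]

theorem mean_le_frac {p : C → Prop} {f : C → ℝ} (h1 : ∀ c, f c ≤ 1) (h0 : ∀ c, ¬ p c → f c ≤ 0) :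
    mean f ≤ frac p := by
  rw [frac_eq_mean]
  refine mean_mono fun c => ?_
  split_ifs with h
  exacts [h1 c, h0 c h]

theorem frac_mono {p q : C → Prop} (h : ∀ c, p c → q c) : frac p ≤ frac q := by
  rw [frac_eq_mean q]
  refine frac_le_mean (fun c => ?_) fun c hc => ?_
  · split_ifs <;> norm_num
  · rw [if_pos (h c hc)]

theorem frac_or_le (p q : C → Prop) : frac (fun c => p c ∨ q c) ≤ frac p + frac q := by
  rw [frac_eq_mean p, frac_eq_mean q, ← mean_add]
  refine frac_le_mean (fun c => ?_) fun c hc => ?_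
  · split_ifs <;> norm_num
  · split_ifs with h1 h2 h2
    · norm_num
    · norm_num
    · norm_num
    · tauto

theorem frac_or_le' {p q : C → Prop} {a b : ℝ} (hp : frac p ≤ a) (hq : frac q ≤ b) :
    frac (fun c => p c ∨ q c) ≤ a + b := (frac_or_le p q).trans (add_le_add hp hq)

theorem frac_exists_le {ι : Type} [Fintype ι] {p : ι → C → Prop} {ε : ι → ℝ}
    (h : ∀ i, frac (p i) ≤ ε i) : frac (fun c => ∃ i, p i c) ≤ ∑ i, ε i := by
  classical
  refine le_trans ?_ (sum_le_sum fun i _ => h i)
  have e : ∑ i, frac (p i) = mean fun c => ∑ i, if p i c then (1 : ℝ) else 0 := by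
    simp only [frac_eq_mean, mean]
    rw [← sum_div, sum_comm]
  rw [e]
  have h0 : ∀ i c, (0 : ℝ) ≤ if p i c then 1 else 0 := fun i c => by split_ifs <;> norm_num
  refine frac_le_mean (fun c => sum_nonneg fun i _ => h0 i c) fun c ⟨i, hi⟩ => ?_
  refine le_trans ?_ (single_le_sum (fun j _ => h0 j c) (mem_univ i))
  rw [if_pos hi]

theorem frac_exists_le' {ι : Type} [Fintype ι] {p : ι → C → Prop} {ε : ℝ}
    (h : ∀ i, frac (p i) ≤ ε) : frac (fun c => ∃ i, p i c) ≤ Fintype.card ι * ε := by
  refine (frac_exists_le h).trans (le_of_eq ?_)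
  rw [sum_const, card_univ, nsmul_eq_mul]

theorem mean_prod (f : X × Y → ℝ) : mean f = mean fun x => mean fun y => f (x, y) := by
  unfold mean
  rw [Fintype.sum_prod_type, ← sum_div, Fintype.card_prod, div_div, Nat.cast_mul, mul_comm]

theorem mean_prod' (f : X × Y → ℝ) : mean f = mean fun y => mean fun x => f (x, y) := by
  unfold mean
  rw [Fintype.sum_prod_type_right, ← sum_div, Fintype.card_prod, div_div, Nat.cast_mul]

theorem frac_prod (p : X × Y → Prop) : frac p = mean fun x => frac fun y => p (x, y) := by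
  simp only [frac_eq_mean]
  rw [mean_prod]

theorem frac_prod' (p : X × Y → Prop) : frac p = mean fun y => frac fun x => p (x, y) := by
  simp only [frac_eq_mean]
  rw [mean_prod']

theorem frac_prod_le [Nonempty X] {p : X × Y → Prop} {ε : ℝ}
    (h : ∀ x, frac (fun y => p (x, y)) ≤ ε) : frac p ≤ ε := by
  rw [frac_prod]
  exact mean_le_of_le h

theorem frac_fst [Nonempty Y] (p : X → Prop) : frac (fun z : X × Y => p z.1) = frac p := by
  classical
  rw [frac_eq_mean, mean_prod, frac_eq_mean]
  exact congrArg mean (funext fun x => mean_const (C := Y) (if p x then 1 else 0))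

theorem frac_snd [Nonempty X] (p : Y → Prop) : frac (fun z : X × Y => p z.2) = frac p := by
  classical
  rw [frac_eq_mean, mean_prod', frac_eq_mean]
  exact congrArg mean (funext fun y => mean_const (C := X) (if p y then 1 else 0))

theorem markov {f : C → ℝ} (h0 : ∀ c, 0 ≤ f c) {t : ℝ} (ht : 0 < t) :
    frac (fun c => t ≤ f c) ≤ 1 / t * mean f := by
  rw [← mean_mul]
  refine frac_le_mean (fun c => mul_nonneg (by positivity) (h0 c)) fun c hc => ?_
  rw [one_div, ← div_eq_inv_mul, le_div_iff₀ ht, one_mul]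
  exact hc

theorem frac_slice_le (p : X × Y → Prop) (x : X) :
    frac (fun y => p (x, y)) ≤ Fintype.card X * frac p := by
  have hX : (0 : ℝ) < Fintype.card X := by exact_mod_cast Fintype.card_pos_iff.2 ⟨x⟩
  rw [frac_prod p, mean, mul_div_cancel₀ _ hX.ne']
  exact single_le_sum (f := fun x => frac fun y => p (x, y)) (fun _ _ => frac_nonneg _) (mem_univ x)

/-- Few positions have a row with many bad cells. -/
theorem frac_rows {P A T : Type} [Fintype P] [Fintype A] [Fintype T] [Nonempty A]
    (Bad : P × A × T → Prop) {γ : ℝ} (hγ : 0 < γ) :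
    frac (fun p => ∃ a, γ ≤ frac fun t => Bad (p, a, t)) ≤ Fintype.card A / γ * frac Bad := by
  have hA : (0 : ℝ) < Fintype.card A := by exact_mod_cast Fintype.card_pos
  have h := markov (f := fun p => frac fun y => Bad (p, y)) (fun _ => frac_nonneg _)
    (div_pos hγ hA)
  rw [← frac_prod, one_div_div] at h
  refine le_trans (frac_mono fun p ⟨a, ha⟩ => ?_) h
  rw [div_le_iff₀' hA]
  exact ha.trans (frac_slice_le (fun y => Bad (p, y)) a)

theorem abs_mean_sub_le [Nonempty C] {f g : C → ℝ} {η : ℝ} (h : ∀ c, |f c - g c| ≤ η) :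
    |mean f - mean g| ≤ η := by
  have h1 : mean f ≤ mean fun c => g c + η := mean_mono fun c => by linarith [(abs_le.1 (h c)).2]
  have h2 : mean g ≤ mean fun c => f c + η := mean_mono fun c => by linarith [(abs_le.1 (h c)).1]
  rw [mean_add, mean_const] at h1 h2
  exact abs_le.2 ⟨by linarith, by linarith⟩

theorem bv_mem (b : Bool) : 0 ≤ bv b ∧ bv b ≤ 1 := by cases b <;> simp [bv]

/-- The mean of values which are mostly close to a bit. -/
theorem abs_mean_sub_bv_le [Nonempty C] {u : C → ℝ} (hu : ∀ c, 0 ≤ u c ∧ u c ≤ 1) (b : Bool)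
    {β : ℝ} (hβ : 0 ≤ β) {p : C → Prop} (h : ∀ c, ¬ p c → |u c - bv b| ≤ β) :
    |mean u - bv b| ≤ β + frac p := by
  classical
  have h1 : ∀ c, |u c - bv b| ≤ β + if p c then 1 else 0 := fun c => by
    split_ifs with hc
    · have := hu c
      have := bv_mem b
      rw [abs_le]
      constructor <;> linarith
    · linarith [h c hc]
  have h2 : mean u ≤ mean fun c => (bv b + β) + if p c then 1 else 0 :=
    mean_mono fun c => by linarith [(abs_le.1 (h1 c)).2]
  have h3 : mean (fun _ : C => bv b - β) ≤ mean fun c => u c + if p c then 1 else 0 :=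
    mean_mono fun c => by linarith [(abs_le.1 (h1 c)).1]
  rw [mean_add, mean_const, ← frac_eq_mean] at h2 h3
  exact abs_le.2 ⟨by linarith, by linarith⟩

open Classical in
/-- All fibres have at most `m` elements. -/
def Fib (m : ℝ) (f : X → Y) : Prop := ∀ y, ((univ.filter fun x => f x = y).card : ℝ) ≤ m

theorem Fib.bal {m : ℝ} {f : X → X} (h : Fib m f) : Bal m f := by
  classical
  intro B
  unfold frac
  rw [← mul_div_assoc]
  refine div_le_div_of_nonneg_right ?_ (Nat.cast_nonneg _)
  have h1 : (univ.filter fun x => B (f x)).card =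
      ∑ y ∈ univ.filter B, ((univ.filter fun x => B (f x)).filter fun x => f x = y).card :=
    card_eq_sum_card_fiberwise fun x hx => by simpa using hx
  have h2 : ∑ y ∈ univ.filter B,
      (((univ.filter fun x => B (f x)).filter fun x => f x = y).card : ℝ) ≤
      ∑ _y ∈ univ.filter B, m := sum_le_sum fun y _ => by
    refine le_trans ?_ (h y)
    exact_mod_cast card_le_card fun x hx => by simpa using (mem_filter.1 hx).2
  rw [sum_const, nsmul_eq_mul, mul_comm] at h2
  rw [h1, Nat.cast_sum]
  exact h2

theorem Bal.fib {K : ℝ} {f : X × Y → X} (h : Bal K f) : Fib (K * Fintype.card Y) f := by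
  classical
  intro x
  have hX : (0 : ℝ) < Fintype.card X := by exact_mod_cast Fintype.card_pos_iff.2 ⟨x⟩
  have h1 := h fun z => z = x
  unfold frac at h1
  rcases isEmpty_or_nonempty Y with hY | hY
  · simp
  have hY' : (0 : ℝ) < Fintype.card Y := by exact_mod_cast Fintype.card_pos
  rw [Fintype.card_prod, Nat.cast_mul, div_le_iff₀ (by positivity)] at h1
  have e : ((univ.filter fun z : X => z = x).card : ℝ) = 1 := by
    have : (univ.filter fun z : X => z = x) = {x} := by ext; simp
    rw [this, card_singleton, Nat.cast_one]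
  have e' : K * (1 / (Fintype.card X : ℝ)) * (Fintype.card X * Fintype.card Y) =
      K * Fintype.card Y := by field_simp
  rw [← e', ← e]
  convert h1

theorem tvd_le_pd (w : C → ℝ) (u : C → Bool) : tvd w u ≤ pd w u :=
  frac_mono fun c hc h => by
    rw [h, sub_self, abs_zero] at hc
    norm_num at hc

end Frac

/-- the use of a gate which is in order -/
theorem sat_mk' {V D : Type} [En D] [DecidableEq D] {src : D → V} {F : (D → ℝ) → Bool} {η o : ℝ}
    {x : V → ℝ} (h : (Gate.mk' src F).Sat η x o) {b : Bool}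
    (hb : ∀ y : D → ℝ, (∀ d, |y d - x (src d)| ≤ η) → F y = b) : o = bv b := by
  refine h b fun l hl => hb _ fun d => ?_
  have hd : (elems D).idxOf d < (elems D).length := List.idxOf_lt_length_of_mem (En.complete d)
  have h1 : List.Forall₂ (fun d t => |t - x (src d)| ≤ η) (elems D) l :=
    List.forall₂_map_left_iff.1 hl
  have h2 : (elems D).idxOf d < l.length := h1.length_eq ▸ hd
  have h3 := h1.get hd h2
  rw [List.getD_eq_getElem _ _ h2]
  simpa using h3

/-- rounding of a noisy reading -/
theorem round_eq {t : ℝ} {b : Bool} (h : |t - bv b| < 1 / 2) : decide (1 / 2 < t) = b := by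
  have := abs_lt.1 h
  cases b
  · simp only [bv, Bool.false_eq_true, if_false] at this
    exact decide_eq_false (by linarith)
  · simp only [bv, if_true] at this
    exact decide_eq_true (by linarith)

/-- the symbol whose reading is large -/
noncomputable def dec {A : Type} [Nonempty A] (y : A → ℝ) : A :=
  Classical.epsilon fun a => 1 / 2 < y a

theorem dec_eq {A : Type} [Nonempty A] [DecidableEq A] {y : A → ℝ} {a0 : A}
    (h : ∀ a, |y a - bv (decide (a0 = a))| < 1 / 2) : dec y = a0 := by
  have h1 : ∀ a, 1 / 2 < y a ↔ a0 = a := fun a => by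
    have := round_eq (h a)
    simpa using this
  exact ((h1 _).1 (Classical.epsilon_spec (p := fun a => 1 / 2 < y a) ⟨a0, (h1 a0).2 rfl⟩)).symm

theorem ev_mul_le (a : ℝ) {b : ℝ} (hb : 0 < b) :
    ∀ᶠ η in nhdsWithin (0 : ℝ) (Set.Ioi 0), a * η ≤ b := by
  have h : Filter.Tendsto (fun η : ℝ => a * η) (nhds 0) (nhds (a * 0)) :=
    (continuous_const.mul continuous_id).tendsto 0
  rw [mul_zero] at h
  exact (h.eventually (eventually_le_nhds hb)).filter_mono nhdsWithin_le_nhds

end Vale.Agent.P330.Phys
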