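import Vale.Agent.P330.Phys.Frac
import Vale.Agent.P330.Glue

/-!
P330: a balanced choice of positions is completed to a balanced choice of positions and seeds.
-/

namespace Vale.Agent.P330.Phys

open Vale.Agent.Lib.PolyTime hiding C P
open Vale.Agent.Lib.Dep
open Finset

theorem length_elems (V : Type) [En V] [Fintype V] : (elems V).length = Fintype.card V := by
  classical
  rw [← List.toFinset_card_of_nodup En.nodup]
  congr 1
  ext v
  simp [En.complete]

theorem length_filter_elems {V : Type} [En V] [Fintype V] (p : V → Prop) [DecidablePred p] :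
    ((elems V).filter fun v => decide (p v)).length = (univ.filter p).card := by
  classical
  rw [← List.toFinset_card_of_nodup (En.nodup.filter _)]
  congr 1
  ext v
  simp [En.complete]

/-- the rank of a pair in its fibre, as a seed -/
def rank {P S : Type} [En P] [En S] [DecidableEq P] [DecidableEq S] (f : P × S → P) (x : P × S) :
    S :=
  (elems S).getD ((((elems (P × S)).filter fun y => decide (f y = f x)).idxOf x) %
    (elems S).length) x.2

theorem fib_rank {P S : Type} [En P] [En S] [DecidableEq P] [DecidableEq S] [Fintype P]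
    [Fintype S] [Nonempty S] {K : ℝ} {f : P × S → P} (h : Bal K f) :
    Fib (|K| + 1) fun x => (f x, rank f x) := by
  classical
  rintro ⟨q, s⟩
  have hn : 0 < (elems S).length := by rw [length_elems]; exact Fintype.card_pos
  obtain ⟨l, hl⟩ : ∃ l, l = (elems (P × S)).filter fun y => decide (f y = q) := ⟨_, rfl⟩
  have hlen : (l.length : ℝ) ≤ |K| * (elems S).length := by
    have h1 := Bal.fib h q
    rw [hl, length_filter_elems (fun y => f y = q), length_elems]
    refine le_trans ?_ (mul_le_mul_of_nonneg_right (le_abs_self K) (Nat.cast_nonneg _))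
    refine le_trans (le_of_eq ?_) h1
    congr
  have key : ∀ x, (f x, rank f x) = (q, s) →
      x ∈ l ∧ l.idxOf x % (elems S).length = (elems S).idxOf s := by
    intro x hx
    obtain ⟨h1, h2⟩ := Prod.mk.inj hx
    refine ⟨by simp [hl, En.complete, h1], ?_⟩
    unfold rank at h2
    rw [h1, ← hl, List.getD_eq_getElem _ _ (Nat.mod_lt _ hn)] at h2
    rw [← h2, En.nodup.idxOf_getElem]
  have h1 : (univ.filter fun x => (f x, rank f x) = (q, s)).card ≤
      (range (l.length / (elems S).length + 1)).card := by
    refine card_le_card_of_injOn (fun x => l.idxOf x / (elems S).length) (fun x hx => ?_)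
      fun x hx y hy hxy => ?_
    · have := List.idxOf_lt_length_of_mem (key x (by simpa using hx)).1
      exact mem_coe.2 (mem_range.2 (Nat.lt_succ_of_le (Nat.div_le_div_right this.le)))
    · obtain ⟨a1, a2⟩ := key x (by simpa using hx)
      obtain ⟨-, b2⟩ := key y (by simpa using hy)
      refine (List.idxOf_inj a1).1 ?_
      rw [← Nat.div_add_mod (l.idxOf x) (elems S).length,
        ← Nat.div_add_mod (l.idxOf y) (elems S).length, a2, b2]
      exact congrArg (fun t => (elems S).length * t + _) hxy
  rw [card_range] at h1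
  have h2 : ((l.length / (elems S).length : ℕ) : ℝ) ≤ |K| := by
    refine Nat.cast_div_le.trans ?_
    rw [div_le_iff₀ (by exact_mod_cast hn)]
    exact hlen
  have h3 : (((univ.filter fun x => (f x, rank f x) = (q, s)).card : ℕ) : ℝ) ≤
      ((l.length / (elems S).length : ℕ) : ℝ) + 1 := by exact_mod_cast h1
  refine le_trans (le_of_eq ?_) (h3.trans (by linarith))
  congr

section PT

variable {α : Type} [Enc α] {β : α → Type} [∀ a, Enc (β a)]

theorem takeWhile_congr' {κ : Type} {p q : κ → Bool} {l : List κ} (h : ∀ x ∈ l, p x = q x) :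
    l.takeWhile p = l.takeWhile q := by
  induction l with
  | nil => rfl
  | cons y l ih =>
    rw [List.takeWhile_cons, List.takeWhile_cons, h y (by simp),
      ih fun x hx => h x (by simp [hx])]

theorem dpt_takeWhile {l : ∀ a, List (β a)} {f : ∀ a, β a → Bool} (hl : DPT l)
    (hf : DPT (fun p : Σ a, {x // x ∈ l a} => f p.1 p.2.1)) :
    DPT (fun a => (l a).takeWhile (f a)) := by
  obtain ⟨F, hF, hF'⟩ := hf.liftBool
  refine DPT.of_listPT (PT.takeWhile hl.listPT hF) fun a => ?_
  rw [List.takeWhile_map]
  congr 1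
  exact takeWhile_congr' fun x hx => hF' a x hx

theorem dpt_idxOf [∀ a, EncInj (β a)] [∀ a, BEq (β a)] [∀ a, LawfulBEq (β a)]
    {l : ∀ a, List (β a)} {x : ∀ a, β a} (hl : DPT l) (hx : DPT x) :
    DPT fun a => (l a).idxOf (x a) := by
  classical
  have h1 : DPT fun a => ((l a).takeWhile fun y => !decide (y = x a)).length :=
    (dpt_takeWhile (f := fun a y => !decide (y = x a)) hl
      (DPT.decide (DPr.eq (DPT.val DPT.ssnd) (hx.comp DPT.id.sfst))).not).length
  refine h1.congr fun a => ?_
  induction l a with
  | nil => simp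
  | cons y l ih =>
    rw [List.takeWhile_cons, List.idxOf_cons]
    by_cases e : y = x a
    · simp [e]
    · simp [e, ih, beq_eq_false_iff_ne.2 e]

theorem dpt_rank (P S : TF α) {f : ∀ a, P.T a × S.T a → P.T a}
    (hf : DPT fun x : Σ a, P.T a × S.T a => f x.1 x.2) :
    DPT fun x : Σ a, P.T a × S.T a => rank (f x.1) x.2 := by
  have hS : DPT fun x : Σ a, P.T a × S.T a => elems (S.T x.1) := S.pt.comp DPT.id.sfst
  have hPS : DPT fun x : Σ a, P.T a × S.T a => elems (P.T x.1 × S.T x.1) :=
    (Glue.tfProd P S).pt.comp DPT.id.sfst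
  refine DPT.getD hS (DPT.natMod (dpt_idxOf (DPT.filter hPS (DPT.decide (DPr.eq ?_ ?_))) DPT.ssnd)
    hS.length) DPT.ssnd.snd
  · exact hf.comp (f := fun p : Σ x : Σ a, P.T a × S.T a, {y // y ∈ elems (P.T x.1 × S.T x.1)} =>
      ⟨p.1.1, p.2.1⟩) (DPT.smk DPT.id.sfst.sfst DPT.ssnd.val)
  · exact hf.comp DPT.id.sfst

end PT

end Vale.Agent.P330.Phys
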